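import Mathlib

set_option linter.all false

/-!
Averages over a finite commutative group acting on a finite set.
-/

namespace Vale.Agent.P249.H606

open Finset

section avg

variable {G Y : Type} [AddCommGroup G] [Fintype G] [Fintype Y]

/-- inner product -/
def ip {Y : Type} [Fintype Y] (u v : Y → ℝ) : ℝ := ∑ y, u y * v y

/-- average over the group -/
noncomputable def av (π : G → Y → Y) (v : Y → ℝ) (y : Y) : ℝ :=
  (∑ g, v (π g y)) / (Fintype.card G : ℝ)

/-- an action -/
structure Act (π : G → Y → Y) : Prop where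
  zero : ∀ y, π 0 y = y
  add : ∀ g h y, π (g + h) y = π g (π h y)

theorem ip_comm (u v : Y → ℝ) : ip u v = ip v u := by
  unfold ip; exact Finset.sum_congr rfl fun y _ => mul_comm _ _

theorem ip_self_nonneg (u : Y → ℝ) : 0 ≤ ip u u :=
  Finset.sum_nonneg fun y _ => mul_self_nonneg _

theorem ip_add_left (u v w : Y → ℝ) : ip (fun y => u y + v y) w = ip u w + ip v w := by
  unfold ip; rw [← Finset.sum_add_distrib]; exact Finset.sum_congr rfl fun y _ => by ring

theorem ip_add_right (u v w : Y → ℝ) : ip w (fun y => u y + v y) = ip w u + ip w v := by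
  unfold ip; rw [← Finset.sum_add_distrib]; exact Finset.sum_congr rfl fun y _ => by ring

theorem ip_smul_left (c : ℝ) (u w : Y → ℝ) : ip (fun y => c * u y) w = c * ip u w := by
  unfold ip; rw [Finset.mul_sum]; exact Finset.sum_congr rfl fun y _ => by ring

theorem ip_smul_right (c : ℝ) (u w : Y → ℝ) : ip w (fun y => c * u y) = c * ip w u := by
  unfold ip; rw [Finset.mul_sum]; exact Finset.sum_congr rfl fun y _ => by ring

theorem ip_sub_left (u v w : Y → ℝ) : ip (fun y => u y - v y) w = ip u w - ip v w := by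
  unfold ip; rw [← Finset.sum_sub_distrib]; exact Finset.sum_congr rfl fun y _ => by ring

theorem ip_sub_right (u v w : Y → ℝ) : ip w (fun y => u y - v y) = ip w u - ip w v := by
  unfold ip; rw [← Finset.sum_sub_distrib]; exact Finset.sum_congr rfl fun y _ => by ring

/-- Cauchy-Schwarz -/
theorem ip_sq_le (u v : Y → ℝ) : (ip u v) ^ 2 ≤ ip u u * ip v v := by
  unfold ip
  have h := Finset.sum_mul_sq_le_sq_mul_sq Finset.univ u v
  simpa [pow_two] using h

theorem ip_le (u v : Y → ℝ) : ip u v ≤ Real.sqrt (ip u u) * Real.sqrt (ip v v) := by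
  rw [← Real.sqrt_mul (ip_self_nonneg u)]
  exact Real.le_sqrt_of_sq_le (ip_sq_le u v)

variable {π : G → Y → Y}

/-- the permutations -/
def Act.equiv (h : Act π) (g : G) : Y ≃ Y where
  toFun := π g
  invFun := π (-g)
  left_inv := fun y => by rw [← h.add, neg_add_cancel, h.zero]
  right_inv := fun y => by rw [← h.add, add_neg_cancel, h.zero]

theorem Act.sum_comp (h : Act π) (g : G) (F : Y → ℝ) : ∑ y, F (π g y) = ∑ y, F y :=
  Equiv.sum_comp (h.equiv g) F

theorem card_pos' : (0 : ℝ) < (Fintype.card G : ℝ) := by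
  exact_mod_cast Fintype.card_pos

theorem ip_av_eq (π : G → Y → Y) (u v : Y → ℝ) :
    ip u (av π v) = (∑ g, ∑ y, u y * v (π g y)) / (Fintype.card G : ℝ) := by
  unfold ip av
  rw [Finset.sum_comm, Finset.sum_div]
  refine Finset.sum_congr rfl fun y _ => ?_
  rw [← Finset.mul_sum]
  ring

theorem Act.symm (h : Act π) (u v : Y → ℝ) : ip (av π u) v = ip u (av π v) := by
  rw [ip_comm, ip_av_eq, ip_av_eq]
  congr 1
  rw [← Equiv.sum_comp (Equiv.neg G) (fun g => ∑ y, u y * v (π g y))]
  refine Finset.sum_congr rfl fun g _ => ?_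
  rw [← h.sum_comp g (fun y => u y * v (π ((Equiv.neg G) g) y))]
  refine Finset.sum_congr rfl fun y _ => ?_
  have : π ((Equiv.neg G) g) (π g y) = y := by
    rw [← h.add]; simp [h.zero]
  rw [this]; ring

/-- the average is invariant -/
theorem Act.av_comp (h : Act π) (v : Y → ℝ) (k : G) (y : Y) : av π v (π k y) = av π v y := by
  unfold av
  congr 1
  rw [← Equiv.sum_comp (Equiv.addRight k) (fun g => v (π g y))]
  refine Finset.sum_congr rfl fun g _ => ?_
  show v (π g (π k y)) = v (π (g + k) y)
  rw [h.add]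

/-- average of the translated function -/
theorem Act.av_of_comp (h : Act π) (v : Y → ℝ) (k : G) : av π (fun y => v (π k y)) = av π v := by
  funext y
  unfold av
  congr 1
  rw [← Equiv.sum_comp (Equiv.addRight k) (fun g => v (π g y))]
  refine Finset.sum_congr rfl fun g _ => ?_
  show v (π k (π g y)) = v (π (g + k) y)
  rw [add_comm, h.add]

theorem av_of_inv (v : Y → ℝ) (hv : ∀ g y, v (π g y) = v y) : av π v = v := by
  funext y
  unfold av
  have : ∑ g, v (π g y) = (Fintype.card G : ℝ) * v y := by
    rw [Finset.sum_congr rfl fun g _ => hv g y]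
    simp
  rw [this]
  have := card_pos' (G := G)
  field_simp

theorem Act.idem (h : Act π) (v : Y → ℝ) : av π (av π v) = av π v :=
  av_of_inv _ fun g y => h.av_comp v g y

theorem Act.norm_av (h : Act π) (v : Y → ℝ) : ip (av π v) (av π v) = ip v (av π v) := by
  rw [h.symm, h.idem]

theorem Act.norm_av_le (h : Act π) (v : Y → ℝ) : ip (av π v) (av π v) ≤ ip v v := by
  have h1 := ip_self_nonneg (fun y => v y - av π v y)
  rw [ip_sub_left, ip_sub_right, ip_sub_right, h.norm_av, ip_comm (av π v) v] at h1
  rw [h.norm_av]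
  linarith

theorem av_add (π : G → Y → Y) (u v : Y → ℝ) :
    av π (fun y => u y + v y) = fun y => av π u y + av π v y := by
  funext y; unfold av; rw [Finset.sum_add_distrib, add_div]

theorem av_smul (π : G → Y → Y) (c : ℝ) (v : Y → ℝ) :
    av π (fun y => c * v y) = fun y => c * av π v y := by
  funext y; unfold av; rw [← Finset.mul_sum, mul_div_assoc]

/-- comparison with a subgroup -/
theorem Act.sub_le {H : Type} [AddCommGroup H] [Fintype H] (h : Act π) (ι : H → G)
    (h0 : ι 0 = 0) (hι : ∀ a b, ι (a + b) = ι a + ι b) (v : Y → ℝ) :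
    ip v (av π v) ≤ ip v (av (fun a => π (ι a)) v) := by
  have hH : Act (fun a => π (ι a)) := ⟨fun y => by simp only [h0, h.zero], fun a b y => by
    simp only [hι, h.add]⟩
  set w := av (fun a => π (ι a)) v with hw
  -- av π w = av π v
  have h1 : av π w = av π v := by
    funext y
    rw [hw]
    unfold av
    congr 1
    have hc := card_pos' (G := H)
    have : ∑ g, (∑ a, v (π (ι a) (π g y))) / (Fintype.card H : ℝ) =
        (∑ a : H, ∑ g, v (π (ι a) (π g y))) / (Fintype.card H : ℝ) := by
      rw [← Finset.sum_div, Finset.sum_comm]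
    rw [this]
    have h2 : ∀ a : H, ∑ g, v (π (ι a) (π g y)) = ∑ g, v (π g y) := by
      intro a
      rw [← Equiv.sum_comp (Equiv.addLeft (ι a)) (fun g => v (π g y))]
      refine Finset.sum_congr rfl fun g _ => ?_
      show v (π (ι a) (π g y)) = v (π (ι a + g) y)
      rw [h.add]
    rw [Finset.sum_congr rfl fun a _ => h2 a]
    simp only [Finset.sum_const, Finset.card_univ, nsmul_eq_mul]
    field_simp
  have h2 : ip v (av π v) = ip (av π v) (av π v) := (h.norm_av v).symm
  have h3 : ip (av π v) (av π v) = ip (av π w) (av π w) := by rw [h1]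
  have h4 := h.norm_av_le w
  have h5 : ip w w = ip v w := hH.norm_av v
  linarith

end avg

end Vale.Agent.P249.H606
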