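import Vale.Agent.P249.TP.FinalD

/-! # P249, phase 3, FINAL: numerics and transfer (helper606) -/

open Finset MeasureTheory Filter Asymptotics
open scoped BigOperators

namespace Vale.Agent.P249.H606

open Vale.Agent.P249.TP

/-- Powers of different orders. -/
lemma pow_isLittleO {a b : ℝ} (h : a < b) :
    (fun x : ℝ => x ^ a) =o[atTop] fun x : ℝ => x ^ b := by
  refine isLittleO_of_tendsto' ?_ ?_
  · filter_upwards [eventually_gt_atTop (0 : ℝ)] with x hx h0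
    exact absurd h0 (Real.rpow_pos_of_pos hx _).ne'
  · refine (tendsto_rpow_neg_atTop (sub_pos.mpr h)).congr' ?_
    filter_upwards [eventually_gt_atTop (0 : ℝ)] with x hx
    rw [neg_sub, Real.rpow_sub hx]

/-- `x = log log N`: there is `k` with `C k ^ b ≤ x` and `exp (exp (x ^ γ)) ≤ 2 ^ (c 2 ^ k)`, if
`γ < 1 / b` and `x` is large. -/
lemma num3 (C c γ : ℝ) (hC : 0 < C) (hc : 0 < c) (b : ℕ) (hb : 1 ≤ b) (hγ : γ < 1 / b)
    (k₀ : ℕ) : ∀ᶠ x : ℝ in atTop, ∃ k : ℕ, k₀ ≤ k ∧ C * (k : ℝ) ^ b ≤ x ∧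
      Real.exp (Real.exp (x ^ γ)) ≤ (2 : ℝ) ^ (c * (2 : ℝ) ^ k) := by
  have hb0 : (0 : ℝ) < b := by exact_mod_cast hb
  have hbinv : (0 : ℝ) < 1 / b := by positivity
  have hl2 : (1 : ℝ) / 2 < Real.log 2 := by
    have := Real.log_two_gt_d9
    linarith
  -- `t = (x / C) ^ (1 / b)`
  have ht : Tendsto (fun x : ℝ => (x / C) ^ (1 / (b : ℝ))) atTop atTop :=
    (tendsto_rpow_atTop hbinv).comp (tendsto_id.atTop_div_const hC)
  -- `x ^ γ = o(t)`
  have ho : (fun x : ℝ => x ^ γ) =o[atTop] fun x : ℝ => (x / C) ^ (1 / (b : ℝ)) := by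
    have h1 : (fun x : ℝ => x ^ γ) =o[atTop] fun x : ℝ => x ^ (1 / (b : ℝ)) :=
      pow_isLittleO hγ
    refine h1.trans_isBigO ?_
    refine IsBigO.of_bound (C ^ (1 / (b : ℝ))) ?_
    filter_upwards [eventually_ge_atTop (0 : ℝ)] with x hx
    rw [Real.norm_of_nonneg (Real.rpow_nonneg hx _),
      Real.norm_of_nonneg (Real.rpow_nonneg (by positivity) _), Real.div_rpow hx hC.le]
    rw [mul_div_cancel₀ _ (Real.rpow_pos_of_pos hC _).ne']
  have h1 := ho.bound (show (0 : ℝ) < 1 / 8 by norm_num)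
  have h2 := ht.eventually_ge_atTop (max (k₀ + 1 : ℝ) (8 * (1 + Real.log (1 / (c * Real.log 2)))))
  filter_upwards [h1, h2, eventually_ge_atTop (0 : ℝ), ht.eventually_ge_atTop 8]
    with x h1 h2 hx h8
  set t : ℝ := (x / C) ^ (1 / (b : ℝ)) with htdef
  have ht0 : 0 ≤ t := by linarith
  rw [Real.norm_of_nonneg (Real.rpow_nonneg hx _), Real.norm_of_nonneg ht0] at h1
  have h3 : (k₀ + 1 : ℝ) ≤ t := (le_max_left _ _).trans h2
  have h4 : 8 * (1 + Real.log (1 / (c * Real.log 2))) ≤ t := (le_max_right _ _).trans h2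
  refine ⟨⌊t⌋₊, ?_, ?_, ?_⟩
  · exact Nat.le_floor (by linarith)
  · have h5 : (⌊t⌋₊ : ℝ) ^ b ≤ t ^ b := pow_le_pow_left₀ (Nat.cast_nonneg _) (Nat.floor_le ht0) b
    have h6 : t ^ b = x / C := by
      rw [htdef, ← Real.rpow_natCast, ← Real.rpow_mul (by positivity), one_div,
        inv_mul_cancel₀ hb0.ne', Real.rpow_one]
    calc C * (⌊t⌋₊ : ℝ) ^ b ≤ C * t ^ b := by gcongr
      _ = x := by rw [h6]; field_simp
  · have hk : t - 1 ≤ (⌊t⌋₊ : ℝ) := by
      have := Nat.lt_floor_add_one t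
      linarith
    have hcl : 0 < c * Real.log 2 := by positivity
    have h5 : x ^ γ + Real.log (1 / (c * Real.log 2)) ≤ Real.log 2 * (⌊t⌋₊ : ℝ) := by
      have h6 : (1 / 2 : ℝ) * (t - 1) ≤ Real.log 2 * (⌊t⌋₊ : ℝ) := by
        calc (1 / 2 : ℝ) * (t - 1) ≤ Real.log 2 * (t - 1) := by
              apply mul_le_mul_of_nonneg_right hl2.le
              linarith
          _ ≤ Real.log 2 * (⌊t⌋₊ : ℝ) := by gcongr
      linarith
    have h7 : Real.exp (x ^ γ) ≤ c * 2 ^ ⌊t⌋₊ * Real.log 2 := by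
      have h8 : Real.exp (x ^ γ) * (1 / (c * Real.log 2)) ≤ 2 ^ ⌊t⌋₊ := by
        calc Real.exp (x ^ γ) * (1 / (c * Real.log 2))
            = Real.exp (x ^ γ + Real.log (1 / (c * Real.log 2))) := by
              rw [Real.exp_add, Real.exp_log (by positivity)]
          _ ≤ Real.exp (Real.log 2 * (⌊t⌋₊ : ℝ)) := Real.exp_le_exp.mpr h5
          _ = 2 ^ ⌊t⌋₊ := by
              rw [mul_comm, ← Real.rpow_natCast, Real.rpow_def_of_pos (by norm_num), mul_comm]
      calc Real.exp (x ^ γ) = Real.exp (x ^ γ) * (1 / (c * Real.log 2)) * (c * Real.log 2) := by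
            field_simp
        _ ≤ 2 ^ ⌊t⌋₊ * (c * Real.log 2) := by gcongr
        _ = c * 2 ^ ⌊t⌋₊ * Real.log 2 := by ring
    rw [Real.rpow_def_of_pos (by norm_num : (0 : ℝ) < 2)]
    refine Real.exp_le_exp.mpr ?_
    calc Real.exp (x ^ γ) ≤ c * 2 ^ ⌊t⌋₊ * Real.log 2 := h7
      _ = Real.log 2 * (c * 2 ^ ⌊t⌋₊) := by ring

/-- The core in the form used by FINAL: on `2 ^ k` (or more) coordinates there is a set `X` of
functions with `log |X| ≤ 2 ^ (C k ^ b)` that needs dimension more than `2 ^ (c 2 ^ k)`. -/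
def Core3 (b : ℕ) : Prop := ∀ p D : ℝ, 1 < p → p ≠ 2 → 1 ≤ D →
  ∃ (C c : ℝ) (k₀ : ℕ), 0 < C ∧ 0 < c ∧ ∀ k : ℕ, k₀ ≤ k →
    ∃ (I : Type) (_ : Fintype I) (_ : DecidableEq I) (X : Finset (V I → ℝ)),
      Real.log X.card ≤ (2 : ℝ) ^ (C * (k : ℝ) ^ b) ∧
      ∀ (ι : Type) [Fintype ι] (F : (V I → ℝ) → ι → ℝ), BiLip p D X F →
        (2 : ℝ) ^ (c * (2 : ℝ) ^ k) < Fintype.card ι

/-- The conclusion: every admissible dimension is at least `exp (exp ((log log n) ^ γ))`. -/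
def Final3 (γ : ℝ) : Prop := ∀ (p : ENNReal) [Fact (1 ≤ p)], 1 < p → p ≠ ⊤ → p ≠ 2 →
  ∀ D : ℝ, 1 ≤ D → ∃ n₀ : ℕ, ∀ n : ℕ, n₀ ≤ n →
    ∃ (Ω : Type) (_ : MeasurableSpace Ω) (μ : MeasureTheory.Measure Ω)
      (_ : MeasureTheory.IsProbabilityMeasure μ) (X : Finset (MeasureTheory.Lp ℝ p μ)),
      X.card = n ∧ ∀ d : ℕ,
        (∃ f : MeasureTheory.Lp ℝ p μ → PiLp p (fun _ : Fin d => ℝ), ∃ s : ℝ, 0 < s ∧
          ∀ x ∈ X, ∀ y ∈ X, s * ‖x - y‖ ≤ ‖f x - f y‖ ∧ ‖f x - f y‖ ≤ D * s * ‖x - y‖) →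
        Real.exp (Real.exp ((Real.log (Real.log n)) ^ γ)) ≤ d

set_option linter.style.haveILetI false in
open FinT in
theorem final3_of {b : ℕ} (hb : 1 ≤ b) (hcore : Core3 b) {γ : ℝ} (hγ : γ < 1 / b) :
    Final3 γ := by
  intro p _ hp1 hpt hp2 D hD
  have hpr1 : 1 < p.toReal := by
    have := (ENNReal.toReal_lt_toReal (by simp) hpt).mpr hp1
    simpa using this
  have hpr2 : p.toReal ≠ 2 := by
    intro h
    apply hp2
    have h2 : p.toReal = (2 : ENNReal).toReal := by rw [h]; simp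
    exact (ENNReal.toReal_eq_toReal_iff' hpt (by simp)).mp h2
  obtain ⟨C, c, k₀, hC, hc, hcore'⟩ := hcore p.toReal D hpr1 hpr2 hD
  have hlog : Tendsto (fun n : ℕ => Real.log (Real.log (n : ℝ))) atTop atTop :=
    Real.tendsto_log_atTop.comp (Real.tendsto_log_atTop.comp tendsto_natCast_atTop_atTop)
  have hlog' : Tendsto (fun n : ℕ => Real.log (n : ℝ)) atTop atTop :=
    Real.tendsto_log_atTop.comp tendsto_natCast_atTop_atTop
  obtain ⟨n₀, hn₀⟩ := eventually_atTop.mp ((hlog.eventually (num3 C c γ hC hc b hb hγ k₀)).and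
    ((hlog'.eventually_gt_atTop 0).and ((hlog.eventually_ge_atTop 0).and
      (eventually_gt_atTop (0 : ℕ)))))
  refine ⟨n₀, fun N hN => ?_⟩
  obtain ⟨⟨k, hk, hk1, hk2⟩, hLpos, hx0, hN0⟩ := hn₀ N hN
  have hNpos : (0 : ℝ) < N := by exact_mod_cast hN0
  obtain ⟨I, _, _, X, hX1, hX2⟩ := hcore' k hk
  have hcard : X.card ≤ N := by
    by_cases hX0 : X.card = 0
    · omega
    · have hXpos : (0 : ℝ) < X.card := by
        have : 0 < X.card := Nat.pos_of_ne_zero hX0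
        exact_mod_cast this
      have h3 : Real.log X.card ≤ Real.log N := by
        refine hX1.trans ?_
        rw [Real.rpow_def_of_pos (by norm_num : (0 : ℝ) < 2)]
        calc Real.exp (Real.log 2 * (C * (k : ℝ) ^ b))
            ≤ Real.exp (Real.log (Real.log N)) := by
              refine Real.exp_le_exp.mpr ?_
              have hl2 : Real.log 2 ≤ 1 := by
                have := Real.log_two_lt_d9
                linarith
              have h0 : 0 ≤ C * (k : ℝ) ^ b := by positivity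
              nlinarith
          _ = Real.log N := Real.exp_log hLpos
      have := (Real.log_le_log_iff hXpos hNpos).mp h3
      exact_mod_cast this
  letI : MeasurableSpace (V I) := ⊤
  haveI : DiscreteMeasurableSpace (V I) := ⟨fun _ => trivial⟩
  obtain ⟨Y, hY1, hY2⟩ := transfer hpt X N hcard hX2
  refine ⟨V I, inferInstance, unif _, isProb_unif _, Y, hY1, ?_⟩
  intro d hd
  exact hk2.trans (hY2 d hd).le

/-- lower bound for every admissible dimension. -/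
theorem lower_of_final3 {γ : ℝ} (h : Final3 γ) {p : ENNReal} [Fact (1 ≤ p)] (hp1 : 1 < p)
    (hp : p ≠ ⊤) (hp2 : p ≠ 2) {D : ℝ} (hD : 1 ≤ D) :
    ∃ n₀ : ℕ, ∀ n : ℕ, n₀ ≤ n → ∀ d : ℕ, Admissible p n D d →
      Real.exp (Real.exp ((Real.log (Real.log n)) ^ γ)) ≤ d := by
  obtain ⟨n₀, hn₀⟩ := h p hp1 hp hp2 D hD
  refine ⟨n₀, fun n hn d hd => ?_⟩
  obtain ⟨Ω, i, μ, _, X, hX, hlow⟩ := hn₀ n hn
  exact hlow d (hd Ω μ X hX)

/-- `exp (exp ((log log n) ^ γ)) = o(d_p(n, D))` if `Final3 γ'` for a larger `γ'`. -/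
theorem isLittleO_of_final3 {γ γ' : ℝ} (hγ0 : 0 ≤ γ) (hγ : γ < γ') (h : Final3 γ')
    {p : ENNReal} [Fact (1 ≤ p)] (hp1 : 1 < p)
    (hp : p ≠ ⊤) (hp2 : p ≠ 2) {D : ℝ} (hD : 1 < D) :
    (fun n : ℕ => Real.exp (Real.exp ((Real.log (Real.log n)) ^ γ))) =o[atTop]
      (fun n : ℕ => (dimLp p n D : ℝ)) := by
  obtain ⟨n₀, hn₀⟩ := lower_of_final3 h hp1 hp hp2 hD.le
  have hlog : Tendsto (fun n : ℕ => Real.log (Real.log (n : ℝ))) atTop atTop :=
    Real.tendsto_log_atTop.comp (Real.tendsto_log_atTop.comp tendsto_natCast_atTop_atTop)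
  rw [isLittleO_iff]
  intro c hc
  have hg : Tendsto (fun n : ℕ => (Real.log (Real.log (n : ℝ))) ^ (γ' - γ)) atTop atTop :=
    (tendsto_rpow_atTop (sub_pos.mpr hγ)).comp hlog
  filter_upwards [eventually_ge_atTop n₀, eventually_ge_atTop 2,
    hlog.eventually_ge_atTop 1, hg.eventually_ge_atTop (1 + |Real.log (1 / c)|)]
    with n h1 h2 h3 h3'
  set x : ℝ := Real.log (Real.log n) with hx
  have hx0 : 0 < x := by linarith
  have h4 := hn₀ n h1 _ (SP.admissible_dimLp hp1 hp hD h2)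
  rw [← hx] at h4
  set l : ℝ := |Real.log (1 / c)| with hl
  have hl0 : 0 ≤ l := abs_nonneg _
  have h5 : 1 ≤ x ^ γ := Real.one_le_rpow h3 hγ0
  have h6 : x ^ γ + l ≤ x ^ γ' := by
    have : x ^ γ' = x ^ γ * x ^ (γ' - γ) := by
      rw [← Real.rpow_add hx0]
      congr 1
      ring
    rw [this]
    nlinarith
  have h7 : Real.exp (x ^ γ) + l ≤ Real.exp (x ^ γ') := by
    calc Real.exp (x ^ γ) + l ≤ Real.exp (x ^ γ) * (l + 1) := by
          have := Real.one_le_exp (x := x ^ γ) (by linarith)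
          nlinarith
      _ ≤ Real.exp (x ^ γ) * Real.exp l := by
          have := Real.add_one_le_exp l
          gcongr
      _ = Real.exp (x ^ γ + l) := by rw [Real.exp_add]
      _ ≤ Real.exp (x ^ γ') := Real.exp_le_exp.mpr h6
  have h8 : Real.exp (Real.exp (x ^ γ)) * (1 / c) ≤ dimLp p n D := by
    calc Real.exp (Real.exp (x ^ γ)) * (1 / c)
        = Real.exp (Real.exp (x ^ γ) + Real.log (1 / c)) := by
          rw [Real.exp_add, Real.exp_log (by positivity)]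
      _ ≤ Real.exp (Real.exp (x ^ γ')) := by
          refine Real.exp_le_exp.mpr (le_trans ?_ h7)
          have := le_abs_self (Real.log (1 / c))
          linarith
      _ ≤ dimLp p n D := h4
  rw [Real.norm_of_nonneg (Real.exp_pos _).le, Real.norm_of_nonneg (Nat.cast_nonneg _)]
  calc Real.exp (Real.exp (x ^ γ)) = c * (Real.exp (Real.exp (x ^ γ)) * (1 / c)) := by field_simp
    _ ≤ c * (dimLp p n D : ℝ) := by gcongr

end Vale.Agent.P249.H606
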