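import Vale.Agent.P249.H606.Maxi

set_option linter.all false

/-!
The product test theorem by induction on the number of systems.
-/

namespace Vale.Agent.P249.H606

open Finset

variable {A : Type} [Fintype A]

/-- join the system `A` with the first two-valued system -/
def mg {n : ℕ} (f : ZZ A (n + 1) → ℝ) (z : ZZ (A × Bool) n) : ℝ := f (z.1.1, Fin.cons z.1.2 z.2)

/-- the equivalence -/
def eqv (A : Type) (n : ℕ) : ZZ (A × Bool) n ≃ ZZ A (n + 1) where
  toFun := fun z => (z.1.1, Fin.cons z.1.2 z.2)
  invFun := fun z => ((z.1, z.2 0), fun i => z.2 i.succ)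
  left_inv := fun z => by simp
  right_inv := fun z => by
    refine Prod.ext rfl ?_
    funext i
    refine Fin.cases ?_ (fun j => ?_) i
    · simp
    · simp

theorem mx_eqv (n : ℕ) (g : GG n) (z z' : ZZ (A × Bool) n) :
    eqv A n (mx (A × Bool) n g z z') =
      mx A (n + 1) (g.1, Fin.cons g.1 g.2) (eqv A n z) (eqv A n z') := by
  unfold eqv
  simp only [Equiv.coe_fn_mk]
  have h := mx_cons A n g g.1 (z.1.1, z.2) (z'.1.1, z'.2) z.1.2 z'.1.2
  simp only at h
  rw [h]
  unfold mx
  refine Prod.ext ?_ ?_
  · simp only
    rw [pick_map g.1 z.1 z'.1 (fun q => q.1)]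
  · simp only
    rw [pick_map g.1 z.1 z'.1 (fun q => q.2)]

theorem ip_mg {n : ℕ} (f g : ZZ A (n + 1) → ℝ) : ip (mg f) (mg g) = ip f g :=
  Equiv.sum_comp (eqv A n) (fun z => f z * g z)

/-- joining systems makes the test weaker -/
theorem Q_mg {n : ℕ} (f : ZZ A (n + 1) → ℝ) : Q (mx A (n + 1)) f ≤ Q (mx (A × Bool) n) (mg f) := by
  have h1 := (mix_mx A (n + 1)).act.sub_le (H := GG n)
    (fun g => (g.1, Fin.cons g.1 g.2)) (by
      refine Prod.ext rfl ?_
      funext i
      refine Fin.cases ?_ (fun j => ?_) i
      · simp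
      · simp) (fun g k => by
      refine Prod.ext rfl ?_
      funext i
      refine Fin.cases ?_ (fun j => ?_) i
      · simp
      · simp) (tens f f)
  refine h1.trans (le_of_eq ?_)
  unfold Q
  rw [ip_av_eq, ip_av_eq]
  congr 1
  refine Finset.sum_congr rfl fun g _ => ?_
  rw [← Equiv.sum_comp ((eqv A n).prodCongr (eqv A n))]
  refine Finset.sum_congr rfl fun p _ => ?_
  unfold tens sw
  simp only [Equiv.prodCongr_apply, Prod.map]
  rw [← mx_eqv, ← mx_eqv]
  rfl

/-- the purity of the first two-valued system -/
noncomputable def pur {n : ℕ} (f : ZZ A (n + 1) → ℝ) : ℝ :=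
  ∑ y : ZZ A n, ∑ y' : ZZ A n, (sl f true y * sl f true y' + sl f false y * sl f false y') ^ 2

theorem Q_pur {n : ℕ} (f : ZZ A (n + 1) → ℝ) (hf : ip f f = 1) :
    Q (mx A (n + 1)) f ≤ (1 + pur f) / 2 := by
  have h1 := (mix_mx A (n + 1)).act.sub_le (H := ZMod 2 × ZMod 2)
    (fun g => (g.1, Fin.cons g.2 (fun _ => g.1))) (by
      refine Prod.ext rfl ?_
      funext i
      refine Fin.cases ?_ (fun j => ?_) i
      · simp
      · simp) (fun g k => by
      refine Prod.ext rfl ?_
      funext i
      refine Fin.cases ?_ (fun j => ?_) i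
      · simp
      · simp) (tens f f)
  refine h1.trans (le_of_eq ?_)
  rw [ip_av_eq]
  have hc : (Fintype.card (ZMod 2 × ZMod 2) : ℝ) = 4 := by
    rw [Fintype.card_prod, ZMod.card]; norm_num
  rw [hc]
  have hsum : ∀ F : ZMod 2 × ZMod 2 → ℝ, ∑ g, F g = F (0, 0) + F (0, 1) + (F (1, 0) + F (1, 1)) := by
    intro F
    rw [Fintype.sum_prod_type]
    have : (Finset.univ : Finset (ZMod 2)) = {0, 1} := by decide
    rw [this]
    simp only [Finset.sum_insert (show (0 : ZMod 2) ∉ ({1} : Finset (ZMod 2)) by decide),
      Finset.sum_singleton]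
  rw [hsum]
  have key : ∀ u v : ZMod 2, ∑ y : ZZ A (n + 1) × ZZ A (n + 1), tens f f y *
      tens f f (sw (mx A (n + 1)) (u, Fin.cons v (fun _ => u)) y) =
      ∑ y : ZZ A n, ∑ y' : ZZ A n, ∑ s : Bool, ∑ t : Bool,
        (sl f s y * sl f t y') * (sl f (pick v s t) (pick u y y') * sl f (pick v t s) (pick u y' y)) := by
    intro u v
    rw [Fintype.sum_prod_type, sum_cons]
    refine Finset.sum_congr rfl fun y _ => ?_
    rw [sum_cons, sum_cons, ← Finset.sum_add_distrib]
    refine Finset.sum_congr rfl fun y' _ => ?_
    unfold tens sw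
    simp only
    have e : ∀ (s t : Bool) (w w' : ZZ A n), f (mx A (n + 1) (u, Fin.cons v (fun _ => u))
        (w.1, Fin.cons s w.2) (w'.1, Fin.cons t w'.2)) = sl f (pick v s t) (pick u w w') := by
      intro s t w w'
      have h := mx_cons A n (u, fun _ => u) v w w' s t
      simp only at h
      rw [h]
      unfold sl
      have h2 : mx A n (u, fun _ => u) w w' = pick u w w' := by
        unfold mx pick
        split_ifs <;> rfl
      rw [h2]
    rw [e, e, e, e, e, e, e, e]
    simp only [Fintype.sum_bool]
    unfold sl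
    ring
  rw [key, key, key, key]
  have p0 : ∀ {B : Type} (x y : B), pick (0 : ZMod 2) x y = x := fun x y => by simp [pick]
  have p1 : ∀ {B : Type} (x y : B), pick (1 : ZMod 2) x y = y := fun x y => by simp [pick]
  simp only [p0, p1, Fintype.sum_bool]
  have hone : ∑ y : ZZ A n, ∑ y' : ZZ A n,
      (sl f true y * sl f true y + sl f false y * sl f false y) *
      (sl f true y' * sl f true y' + sl f false y' * sl f false y') = 1 := by
    rw [← Finset.sum_mul_sum]
    have h2 : ∑ y : ZZ A n, (sl f true y * sl f true y + sl f false y * sl f false y) = 1 := by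
      rw [← hf, ip_cons, Finset.sum_add_distrib]
      rfl
    rw [h2]; ring
  have e1 : ∑ y : ZZ A n, ∑ y' : ZZ A n,
      (sl f true y * sl f true y' * (sl f true y * sl f true y') +
      sl f true y * sl f false y' * (sl f true y * sl f false y') +
      (sl f false y * sl f true y' * (sl f false y * sl f true y') +
      sl f false y * sl f false y' * (sl f false y * sl f false y'))) = 1 := by
    rw [← hone]
    exact Finset.sum_congr rfl fun y _ => Finset.sum_congr rfl fun y' _ => by ring
  have e2 : ∑ y : ZZ A n, ∑ y' : ZZ A n,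
      (sl f true y * sl f true y' * (sl f true y' * sl f true y) +
      sl f true y * sl f false y' * (sl f false y' * sl f true y) +
      (sl f false y * sl f true y' * (sl f true y' * sl f false y) +
      sl f false y * sl f false y' * (sl f false y' * sl f false y))) = 1 := by
    rw [← hone]
    exact Finset.sum_congr rfl fun y _ => Finset.sum_congr rfl fun y' _ => by ring
  have e3 : ∑ y : ZZ A n, ∑ y' : ZZ A n,
      (sl f true y * sl f true y' * (sl f true y * sl f true y') +
      sl f true y * sl f false y' * (sl f false y * sl f true y') +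
      (sl f false y * sl f true y' * (sl f true y * sl f false y') +
      sl f false y * sl f false y' * (sl f false y * sl f false y'))) = pur f := by
    unfold pur
    exact Finset.sum_congr rfl fun y _ => Finset.sum_congr rfl fun y' _ => by ring
  have e4 : ∑ y : ZZ A n, ∑ y' : ZZ A n,
      (sl f true y * sl f true y' * (sl f true y' * sl f true y) +
      sl f true y * sl f false y' * (sl f true y' * sl f false y) +
      (sl f false y * sl f true y' * (sl f false y' * sl f true y) +
      sl f false y * sl f false y' * (sl f false y' * sl f false y))) = pur f := by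
    unfold pur
    exact Finset.sum_congr rfl fun y _ => Finset.sum_congr rfl fun y' _ => by ring
  rw [e1, e2, e3, e4]
  ring

end Vale.Agent.P249.H606
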