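import Vale.Agent.P249.H606.Sys

set_option linter.all false

/-!
The best product vector.
-/

namespace Vale.Agent.P249.H606

open Finset

/-- unit vectors -/
def US (κ : Type) [Fintype κ] : Set (κ → ℝ) := {c | ∑ x, c x * c x = 1}

theorem US_compact (κ : Type) [Fintype κ] : IsCompact (US κ) := by
  apply Metric.isCompact_of_isClosed_isBounded
  · exact isClosed_eq (by fun_prop) continuous_const
  · refine (Metric.isBounded_closedBall (x := (0 : κ → ℝ)) (r := 1)).subset ?_
    intro c hc
    rw [mem_closedBall_zero_iff, pi_norm_le_iff_of_nonneg (by norm_num)]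
    intro i
    have h1 : c i * c i ≤ ∑ x, c x * c x :=
      Finset.single_le_sum (f := fun x => c x * c x) (fun x _ => mul_self_nonneg _)
        (Finset.mem_univ i)
    have h2 : ∑ x, c x * c x = 1 := hc
    rw [h2] at h1
    rw [Real.norm_eq_abs]
    exact abs_le_one_iff_mul_self_le_one.2 h1

/-- a maximum of a linear functional on the sphere -/
theorem lin_max {κ : Type} [Fintype κ] (v a : κ → ℝ) (s : ℝ) (ha : ∑ x, a x * a x = 1)
    (hs : ∑ x, a x * v x = s) (hmax : ∀ c : κ → ℝ, ∑ x, c x * c x = 1 → ∑ x, c x * v x ≤ s)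
    (c : κ → ℝ) : ∑ x, c x * v x = s * ∑ x, c x * a x := by
  have hs0 : 0 ≤ s := by
    have h1 := hmax (fun x => - a x) (by simpa using ha)
    have h2 : ∑ x, -a x * v x = - s := by rw [← hs, ← Finset.sum_neg_distrib]; simp
    rw [h2] at h1
    linarith
  have hv : ∑ x, v x * v x ≤ s ^ 2 := by
    by_cases h0 : ∑ x, v x * v x = 0
    · rw [h0]; positivity
    · have hpos : 0 < ∑ x, v x * v x :=
        lt_of_le_of_ne (Finset.sum_nonneg fun x _ => mul_self_nonneg _) (Ne.symm h0)
      set V := Real.sqrt (∑ x, v x * v x) with hV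
      have hVpos : 0 < V := Real.sqrt_pos.2 hpos
      have hV2 : V * V = ∑ x, v x * v x := Real.mul_self_sqrt hpos.le
      have h1 := hmax (fun x => v x / V) (by
        have : ∀ x, v x / V * (v x / V) = (v x * v x) / (V * V) := fun x => by
          field_simp
        rw [Finset.sum_congr rfl fun x _ => this x, ← Finset.sum_div, hV2, div_self h0])
      have h2 : ∑ x, v x / V * v x = V := by
        have : ∀ x, v x / V * v x = (v x * v x) / V := fun x => by field_simp
        rw [Finset.sum_congr rfl fun x _ => this x, ← Finset.sum_div, ← hV2]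
        field_simp
      rw [h2] at h1
      rw [← hV2]
      nlinarith
  have hz : ∑ x, (v x - s * a x) * (v x - s * a x) ≤ 0 := by
    have e : ∑ x, (v x - s * a x) * (v x - s * a x) =
        ∑ x, v x * v x - 2 * s * ∑ x, a x * v x + s ^ 2 * ∑ x, a x * a x := by
      rw [Finset.mul_sum, Finset.mul_sum, ← Finset.sum_sub_distrib, ← Finset.sum_add_distrib]
      exact Finset.sum_congr rfl fun x _ => by ring
    rw [e, hs, ha]
    nlinarith
  have hz' : ∀ x, v x = s * a x := by
    intro x
    have h1 : (v x - s * a x) * (v x - s * a x) ≤ ∑ x, (v x - s * a x) * (v x - s * a x) :=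
      Finset.single_le_sum (f := fun x => (v x - s * a x) * (v x - s * a x))
        (fun x _ => mul_self_nonneg _) (Finset.mem_univ x)
    have h2 : (v x - s * a x) * (v x - s * a x) = 0 := le_antisymm (h1.trans hz) (mul_self_nonneg _)
    have h3 := mul_self_eq_zero.1 h2
    linarith
  rw [Finset.mul_sum]
  exact Finset.sum_congr rfl fun x _ => by rw [hz' x]; ring

variable {A : Type} [Fintype A]

/-- unit product data -/
def UP {n : ℕ} (a : A → ℝ) (b : Fin n → Bool → ℝ) : Prop :=
  (∑ x, a x * a x = 1) ∧ ∀ i, b i true * b i true + b i false * b i false = 1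

theorem pv_unit {n : ℕ} (a : A → ℝ) (ha : ∑ x, a x * a x = 1) : ∀ (b : Fin n → Bool → ℝ)
    (_ : ∀ i, b i true * b i true + b i false * b i false = 1), ip (pv a b) (pv a b) = 1 := by
  induction n with
  | zero =>
    intro b _
    rw [ip_pv0, ip_comm, ip_pv0, ip_fst a ha]
  | succ n ih =>
    intro b hb
    rw [ip_ctr]
    have : ctr (b 0) (pv a b) = pv a (fun i => b i.succ) := by
      funext z
      unfold ctr sl
      rw [pv_cons, pv_cons]
      linear_combination (pv a (fun i => b i.succ) z) * hb 0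
    rw [this]
    exact ih _ fun i => hb i.succ

theorem pv_left {n : ℕ} (b : Fin n → Bool → ℝ) (f : ZZ A n → ℝ) :
    ∃ v : A → ℝ, ∀ c : A → ℝ, ip (pv c b) f = ∑ x, c x * v x := by
  refine ⟨fun x => ∑ y : Fin n → Bool, (∏ i, b i (y i)) * f (x, y), fun c => ?_⟩
  unfold ip pv
  rw [Fintype.sum_prod_type]
  refine Finset.sum_congr rfl fun x _ => ?_
  rw [Finset.mul_sum]
  exact Finset.sum_congr rfl fun y _ => by simp only; ring

theorem pv_mid {n : ℕ} (a : A → ℝ) (b : Fin n → Bool → ℝ) (i : Fin n) (f : ZZ A n → ℝ) :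
    ∃ v : Bool → ℝ, ∀ c : Bool → ℝ, ip (pv a (Function.update b i c)) f = ∑ x, c x * v x := by
  refine ⟨fun t => ip (pv a (Function.update b i (fun u => if u = t then 1 else 0))) f,
    fun c => ?_⟩
  rw [Fintype.sum_bool, ← ip_smul_left, ← ip_smul_left, ← ip_add_left]
  congr 1
  funext z
  unfold pv
  have h : ∀ c : Bool → ℝ, ∏ j, (Function.update b i c) j (z.2 j) =
      c (z.2 i) * ∏ j ∈ Finset.univ.erase i, b j (z.2 j) := by
    intro c
    rw [← Finset.mul_prod_erase Finset.univ _ (Finset.mem_univ i), Function.update_self]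
    congr 1
    refine Finset.prod_congr rfl fun j hj => ?_
    rw [Function.update_of_ne (Finset.ne_of_mem_erase hj)]
  rw [h, h, h]
  cases z.2 i <;> simp <;> ring

/-- the best product vector exists -/
theorem exists_best [Nonempty A] {n : ℕ} (f : ZZ A n → ℝ) :
    ∃ (a : A → ℝ) (b : Fin n → Bool → ℝ), UP a b ∧
      ∀ (a' : A → ℝ) (b' : Fin n → Bool → ℝ), UP a' b' → ip (pv a' b') f ≤ ip (pv a b) f := by
  classical
  set S : Set ((A → ℝ) × (Fin n → Bool → ℝ)) := (US A) ×ˢ (Set.pi Set.univ fun _ => US Bool) with hS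
  have hc : IsCompact S := (US_compact A).prod (isCompact_univ_pi fun _ => US_compact Bool)
  have hmem : ∀ (a : A → ℝ) (b : Fin n → Bool → ℝ), UP a b ↔ (a, b) ∈ S := by
    intro a b
    rw [hS]
    simp only [Set.mem_prod, Set.mem_pi, Set.mem_univ, forall_true_left]
    unfold UP US
    simp [Fintype.sum_bool]
  have hne : S.Nonempty := by
    obtain ⟨x0⟩ := ‹Nonempty A›
    refine ⟨(fun x => if x = x0 then 1 else 0, fun _ t => if t then 1 else 0), ?_⟩
    rw [← hmem]
    constructor
    · simp
    · intro i; simp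
  have hcont : ContinuousOn (fun p : (A → ℝ) × (Fin n → Bool → ℝ) => ip (pv p.1 p.2) f) S := by
    unfold ip pv
    fun_prop
  obtain ⟨⟨a, b⟩, h1, h2⟩ := hc.exists_isMaxOn hne hcont
  refine ⟨a, b, (hmem a b).2 h1, fun a' b' h' => ?_⟩
  exact h2 ((hmem a' b').1 h')

/-- the bound for the product test -/
theorem test_bound [Nonempty A] {n : ℕ} (f : ZZ A n → ℝ) (hf : ip f f = 1) :
    ∃ (a : A → ℝ) (b : Fin n → Bool → ℝ), UP a b ∧ 0 ≤ ip (pv a b) f ∧
      (∀ (a' : A → ℝ) (b' : Fin n → Bool → ℝ), UP a' b' → ip (pv a' b') f ≤ ip (pv a b) f) ∧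
      Q (mx A n) f ≤ (ip (pv a b) f) ^ 4 + (ip (pv a b) f *
        Real.sqrt (1 - (ip (pv a b) f) ^ 2) + (1 - (ip (pv a b) f) ^ 2)) ^ 2 := by
  obtain ⟨a, b, hU, hmax⟩ := exists_best f
  set s := ip (pv a b) f with hs
  have hs0 : 0 ≤ s := by
    have h1 := hmax (fun x => - a x) b ⟨by simpa using hU.1, hU.2⟩
    have h2 : ip (pv (fun x => - a x) b) f = - s := by
      have : pv (fun x => - a x) b = fun z => (-1) * pv a b z := by
        funext z; unfold pv; ring
      rw [this, ip_smul_left]; ring
    rw [h2] at h1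
    linarith
  refine ⟨a, b, hU, hs0, hmax, ?_⟩
  set φ : ZZ A n → ℝ := fun z => f z - s * pv a b z with hφ
  have hpp := pv_unit (n := n) a hU.1 b hU.2
  have hsφ : ip (pv a b) φ = 0 := by
    rw [hφ, ip_sub_right, ip_smul_right, hpp]; ring
  have hφφ : ip φ φ = 1 - s ^ 2 := by
    rw [hφ, ip_sub_left, ip_sub_right, ip_smul_left, ip_sub_right, ip_smul_right, ip_smul_right, hf,
      hpp, ip_comm f (pv a b), ← hs]
    ring
  have hq : 4 * Mf a n b φ φ ≤ ip φ φ := by
    refine Mf_quarter a hU.1 n b hU.2 φ (fun c => ?_) (fun i c => ?_)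
    · obtain ⟨v, hv⟩ := pv_left b f
      obtain ⟨v', hv'⟩ := pv_left b (pv a b)
      have h1 := lin_max v a s hU.1 (by rw [← hv]) (fun c hc => by
        rw [← hv]; exact hmax c b ⟨hc, hU.2⟩) c
      have h2 := lin_max v' a 1 hU.1 (by rw [← hv', hpp]) (fun c hc => by
        rw [← hv']
        have := ip_sq_le (pv c b) (pv a b)
        rw [pv_unit c hc b hU.2, hpp] at this
        nlinarith) c
      rw [hφ, ip_sub_right, ip_smul_right, hv, hv', h1, h2]
      ring
    · obtain ⟨v, hv⟩ := pv_mid a b i f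
      obtain ⟨v', hv'⟩ := pv_mid a b i (pv a b)
      have hb : ∑ x, b i x * b i x = 1 := by rw [Fintype.sum_bool]; exact hU.2 i
      have hup : ∀ c : Bool → ℝ, ∑ x, c x * c x = 1 → ∀ j,
          Function.update b i c j true * Function.update b i c j true +
          Function.update b i c j false * Function.update b i c j false = 1 := by
        intro c hc j
        by_cases hj : j = i
        · subst hj; rw [Function.update_self, ← hc, Fintype.sum_bool]
        · rw [Function.update_of_ne hj]; exact hU.2 j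
      have h1 := lin_max v (b i) s hb (by rw [← hv, Function.update_eq_self]) (fun c hc => by
        rw [← hv]; exact hmax a _ ⟨hU.1, hup c hc⟩) c
      have h2 := lin_max v' (b i) 1 hb (by rw [← hv', Function.update_eq_self, hpp])
        (fun c hc => by
        rw [← hv']
        have := ip_sq_le (pv a (Function.update b i c)) (pv a b)
        rw [pv_unit a hU.1 _ (hup c hc), hpp] at this
        nlinarith) c
      rw [hφ, ip_sub_right, ip_smul_right, hv, hv', h1, h2]
      ring
  have hm : ip (tens (pv a b) φ) (av (sw (mx A n)) (tens (pv a b) φ)) ≤ (1 - s ^ 2) / 4 := by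
    rw [test_Mf a hU.1 n b hU.2, ← hφφ]
    linarith
  have h3 := small_bound (mix_mx A n) (1, fun _ => 1) (mx_one A n) (pv a b) f
    (fun g x y => pv_mx a b g x y) hpp hf s ((1 - s ^ 2) / 4) (by rw [hs, ip_comm]) φ
    (fun x => rfl) hm
  refine h3.trans (le_of_eq ?_)
  rw [abs_of_nonneg hs0, Real.sqrt_div' _ (by norm_num : (0:ℝ) ≤ 4),
    show Real.sqrt 4 = 2 by rw [show (4:ℝ) = 2 ^ 2 by norm_num]; exact Real.sqrt_sq (by norm_num)]
  ring

end Vale.Agent.P249.H606
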