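import Vale.Agent.P249.H606.Avg

set_option linter.all false

/-!
The product test: the bound when the best product state is close.
-/

namespace Vale.Agent.P249.H606

open Finset

section mixing

variable {G X : Type} [AddCommGroup G] [Fintype G] [Fintype X]

/-- rules for the exchange of coordinates -/
structure Mix (mx : G → X → X → X) : Prop where
  zero : ∀ x y, mx 0 x y = x
  add : ∀ g h x y, mx (g + h) x y = mx g (mx h x y) (mx h y x)

/-- exchange on pairs -/
def sw {G X : Type} (mx : G → X → X → X) (g : G) (p : X × X) : X × X :=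
  (mx g p.1 p.2, mx g p.2 p.1)

/-- tensor product -/
def tens {X : Type} (u v : X → ℝ) (p : X × X) : ℝ := u p.1 * v p.2

/-- the value of the product test -/
noncomputable def Q (mx : G → X → X → X) (f : X → ℝ) : ℝ :=
  ip (tens f f) (av (sw mx) (tens f f))

variable {mx : G → X → X → X}

theorem Mix.act (h : Mix mx) : Act (sw mx) where
  zero := fun p => by simp [sw, h.zero]
  add := fun g k p => by simp [sw, h.add]

theorem ip_tens (u v u' v' : X → ℝ) :
    ip (tens u v) (tens u' v') = ip u u' * ip v v' := by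
  unfold ip tens
  rw [Fintype.sum_prod_type, Finset.sum_mul_sum]
  refine Finset.sum_congr rfl fun x _ => Finset.sum_congr rfl fun y _ => ?_
  ring

theorem small_bound (h : Mix mx) (ω : G) (hω : ∀ x y, mx ω x y = y) (p f : X → ℝ)
    (hp : ∀ g x y, p (mx g x y) * p (mx g y x) = p x * p y) (hpp : ip p p = 1)
    (hff : ip f f = 1) (s m : ℝ) (hs : s = ip f p) (φ : X → ℝ) (hφ : ∀ x, φ x = f x - s * p x)
    (hm : ip (tens p φ) (av (sw mx) (tens p φ)) ≤ m) :
    Q mx f ≤ s ^ 4 + (2 * |s| * Real.sqrt m + (1 - s ^ 2)) ^ 2 := by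
  have hA := h.act
  have hpφ : ip p φ = 0 := by
    have : φ = fun x => f x - s * p x := funext hφ
    rw [this, ip_sub_right, ip_smul_right, hpp, hs, ip_comm]
    ring
  have hfe : f = fun x => s * p x + φ x := by
    funext x; rw [hφ]; ring
  have hφφ : ip φ φ = 1 - s ^ 2 := by
    have h1 : ip f f = ip (fun x => s * p x + φ x) (fun x => s * p x + φ x) := by
      conv_lhs => rw [hfe]
    rw [hff, ip_add_left, ip_add_right, ip_add_right, ip_smul_left, ip_smul_left, ip_smul_right,
      ip_smul_right, hpp, hpφ, ip_comm φ p, hpφ] at h1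
    linarith
  set P : X × X → ℝ := tens p p with hP
  set A : X × X → ℝ := av (sw mx) (tens p φ) with hAdef
  set B : X × X → ℝ := av (sw mx) (tens φ φ) with hBdef
  set w : X × X → ℝ := fun q => s * (tens p φ q + tens φ p q) + tens φ φ q with hw
  have hv : tens f f = fun q => s ^ 2 * P q + w q := by
    funext q
    rw [hw, hP]
    unfold tens
    simp only
    rw [show f q.1 = s * p q.1 + φ q.1 by rw [hφ]; ring,
      show f q.2 = s * p q.2 + φ q.2 by rw [hφ]; ring]
    ring
  have hPP : av (sw mx) P = P := av_of_inv _ fun g y => by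
    rw [hP]; unfold tens sw; exact hp g y.1 y.2
  have hswap : av (sw mx) (tens φ p) = A := by
    rw [hAdef, ← hA.av_of_comp (tens p φ) ω]
    congr 1
    funext q
    unfold tens sw
    simp only [hω]
    ring
  have haw : av (sw mx) w = fun q => 2 * s * A q + B q := by
    rw [hw, av_add, av_smul, av_add, hswap]
    funext q
    rw [← hAdef, ← hBdef]
    ring
  have hPw : ip P w = 0 := by
    rw [hw, ip_add_right, ip_smul_right, ip_add_right, hP, ip_tens, ip_tens, ip_tens, hpφ]
    ring
  have hQ : Q mx f = s ^ 4 + ip w (av (sw mx) w) := by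
    unfold Q
    have e1 : av (sw mx) (tens f f) = fun q => s ^ 2 * P q + av (sw mx) w q := by
      rw [hv, av_add, av_smul, hPP]
    rw [e1, hv, ip_add_left, ip_add_right, ip_add_right, ip_smul_left, ip_smul_left,
      ip_smul_right, ip_smul_right, ← hA.symm P w, hPP, ip_comm w P, hPw, hP, ip_tens, hpp]
    ring
  rw [hQ, ← hA.norm_av, haw]
  have hAA : ip A A ≤ m := by rw [hAdef, hA.norm_av]; exact hm
  have hBB : ip B B ≤ (1 - s ^ 2) ^ 2 := by
    refine (hA.norm_av_le (tens φ φ)).trans (le_of_eq ?_)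
    rw [ip_tens, hφφ]; ring
  have h1s : 0 ≤ 1 - s ^ 2 := by rw [← hφφ]; exact ip_self_nonneg φ
  have hm0 : 0 ≤ m := (ip_self_nonneg A).trans hAA
  have hAB : |ip A B| ≤ Real.sqrt m * (1 - s ^ 2) := by
    have h2 : (ip A B) ^ 2 ≤ m * (1 - s ^ 2) ^ 2 :=
      (ip_sq_le A B).trans (mul_le_mul hAA hBB (ip_self_nonneg B) hm0)
    have h3 := Real.abs_le_sqrt h2
    rwa [Real.sqrt_mul hm0, Real.sqrt_sq h1s] at h3
  rw [ip_add_left, ip_add_right, ip_add_right, ip_smul_left, ip_smul_right, ip_smul_left,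
    ip_smul_right, ip_comm B A]
  have h4 : 2 * s * ip A B ≤ 2 * |s| * (Real.sqrt m * (1 - s ^ 2)) := by
    have h5 : 2 * s * ip A B ≤ |2 * s * ip A B| := le_abs_self _
    have h6 : |2 * s * ip A B| = 2 * |s| * |ip A B| := by
      rw [abs_mul, abs_mul]; norm_num
    rw [h6] at h5
    refine h5.trans ?_
    exact mul_le_mul_of_nonneg_left hAB (by positivity)
  have h7 : Real.sqrt m ^ 2 = m := Real.sq_sqrt hm0
  have h8 : |s| ^ 2 = s ^ 2 := sq_abs s
  have h9 : 4 * s ^ 2 * ip A A ≤ 4 * s ^ 2 * m := mul_le_mul_of_nonneg_left hAA (by positivity)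
  have h10 : (2 * |s| * Real.sqrt m + (1 - s ^ 2)) ^ 2 =
      4 * s ^ 2 * m + 2 * (2 * |s| * (Real.sqrt m * (1 - s ^ 2))) + (1 - s ^ 2) ^ 2 := by
    calc _ = 4 * (|s| ^ 2) * (Real.sqrt m ^ 2) + 2 * (2 * |s| * (Real.sqrt m * (1 - s ^ 2))) +
        (1 - s ^ 2) ^ 2 := by ring
      _ = _ := by rw [h7, h8]
  rw [h10]
  nlinarith [h4, h9, hBB]

end mixing

end Vale.Agent.P249.H606
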