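import Vale.Agent.P249.H606.Induct

set_option linter.all false

/-!
The induction step.
-/

namespace Vale.Agent.P249.H606

open Finset

variable {A : Type} [Fintype A]

theorem ip_ctr_ctr {n : ℕ} (c : Bool → ℝ) (f : ZZ A (n + 1) → ℝ) :
    ip (ctr c f) (ctr c f) = ∑ y, (c true * sl f true y + c false * sl f false y) ^ 2 := by
  unfold ip ctr
  exact Finset.sum_congr rfl fun y _ => by ring

/-- some vector is nearly an eigenvector -/
theorem exists_pur {n : ℕ} (f : ZZ A (n + 1) → ℝ) (hf : ip f f = 1) :
    ∃ c : Bool → ℝ, c true * c true + c false * c false = 1 ∧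
      pur f ≤ ip (ctr c f) (ctr c f) := by
  by_contra hcon
  push Not at hcon
  set w : ZZ A n → ℝ := fun y => sl f true y * sl f true y + sl f false y * sl f false y with hw
  have hw0 : ∀ y, 0 ≤ w y := fun y => add_nonneg (mul_self_nonneg _) (mul_self_nonneg _)
  have hw1 : ∑ y, w y = 1 := by
    rw [← hf, ip_cons, hw, Finset.sum_add_distrib]
    rfl
  have key : ∀ y', ∑ y : ZZ A n,
      (sl f true y * sl f true y' + sl f false y * sl f false y') ^ 2 ≤ w y' * pur f ∧
      (0 < w y' → ∑ y : ZZ A n,
      (sl f true y * sl f true y' + sl f false y * sl f false y') ^ 2 < w y' * pur f) := by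
    intro y'
    by_cases h0 : w y' = 0
    · have h1 : sl f true y' = 0 := by
        have := hw0 y'
        have h2 : sl f true y' * sl f true y' = 0 := by
          have h3 := mul_self_nonneg (sl f false y')
          have h4 := mul_self_nonneg (sl f true y')
          have h5 : sl f true y' * sl f true y' + sl f false y' * sl f false y' = 0 := h0
          linarith
        exact mul_self_eq_zero.1 h2
      have h2 : sl f false y' = 0 := by
        have h5 : sl f true y' * sl f true y' + sl f false y' * sl f false y' = 0 := h0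
        rw [h1] at h5
        have h6 : sl f false y' * sl f false y' = 0 := by linarith
        exact mul_self_eq_zero.1 h6
      constructor
      · rw [h1, h2, h0]; simp
      · intro h; exact absurd h0 h.ne'
    · have hpos : 0 < w y' := lt_of_le_of_ne (hw0 y') (Ne.symm h0)
      set W := Real.sqrt (w y') with hW
      have hWp : 0 < W := Real.sqrt_pos.2 hpos
      have hW2 : W * W = w y' := Real.mul_self_sqrt (hw0 y')
      have h1 := hcon (fun t => sl f t y' / W) (by
        have : sl f true y' / W * (sl f true y' / W) + sl f false y' / W * (sl f false y' / W) =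
          (sl f true y' * sl f true y' + sl f false y' * sl f false y') / (W * W) := by
          field_simp
        rw [this, hW2]
        exact div_self h0)
      rw [ip_ctr_ctr] at h1
      have h2 : ∑ y : ZZ A n,
          (sl f true y * sl f true y' + sl f false y * sl f false y') ^ 2 =
          w y' * ∑ y, (sl f true y' / W * sl f true y + sl f false y' / W * sl f false y) ^ 2 := by
        rw [Finset.mul_sum]
        refine Finset.sum_congr rfl fun y _ => ?_
        rw [← hW2]
        field_simp
      rw [h2]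
      have h3 := mul_lt_mul_of_pos_left h1 hpos
      exact ⟨h3.le, fun _ => h3⟩
  have hex : ∃ y', 0 < w y' := by
    by_contra hne
    push Not at hne
    have : ∑ y, w y ≤ 0 := Finset.sum_nonpos fun y _ => hne y
    linarith
  obtain ⟨y0, hy0⟩ := hex
  have hpe : pur f = ∑ y' : ZZ A n, ∑ y : ZZ A n,
      (sl f true y * sl f true y' + sl f false y * sl f false y') ^ 2 := by
    unfold pur
    exact Finset.sum_comm
  have h1 : pur f < ∑ y', w y' * pur f := by
    calc pur f = _ := hpe
      _ < _ := Finset.sum_lt_sum (fun y' _ => (key y').1) ⟨y0, Finset.mem_univ _, (key y0).2 hy0⟩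
  rw [← Finset.sum_mul, hw1, one_mul] at h1
  exact lt_irrefl _ h1

/-- squared distances -/
theorem dist_sq {Y : Type} [Fintype Y] (u v : Y → ℝ) (hu : ip u u = 1) (hv : ip v v = 1) :
    ip (fun y => u y - v y) (fun y => u y - v y) = 2 - 2 * ip u v := by
  rw [ip_sub_left, ip_sub_right, ip_sub_right, hu, hv, ip_comm v u]; ring

theorem tri {Y : Type} [Fintype Y] (u v f : Y → ℝ) (hu : ip u u = 1) (hv : ip v v = 1)
    (hf : ip f f = 1) : 2 * ip u f + 2 * ip v f - 3 ≤ ip u v := by
  have h1 : ip (fun y => u y - v y) (fun y => u y - v y) ≤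
      2 * ip (fun y => u y - f y) (fun y => u y - f y) +
      2 * ip (fun y => v y - f y) (fun y => v y - f y) := by
    unfold ip
    rw [Finset.mul_sum, Finset.mul_sum, ← Finset.sum_add_distrib]
    refine Finset.sum_le_sum fun y _ => ?_
    nlinarith [mul_self_nonneg ((u y - f y) + (v y - f y))]
  rw [dist_sq u v hu hv, dist_sq u f hu hf, dist_sq v f hv hf] at h1
  linarith

theorem ip_pv_pv (a a' : A → ℝ) : ∀ {n : ℕ} (b : Fin n → Bool → ℝ)
    (_ : ∀ i, b i true * b i true + b i false * b i false = 1),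
    ip (pv a b) (pv a' b) = ∑ x, a x * a' x := by
  intro n
  induction n with
  | zero =>
    intro b _
    rw [ip_pv0]
    unfold ip pv
    rw [Fintype.sum_prod_type]
    simp
  | succ n ih =>
    intro b hb
    rw [ip_ctr]
    have : ctr (b 0) (pv a' b) = pv a' (fun i => b i.succ) := by
      funext z
      unfold ctr sl
      rw [pv_cons, pv_cons]
      linear_combination (pv a' (fun i => b i.succ) z) * hb 0
    rw [this]
    exact ih _ fun i => hb i.succ

/-- the step: a good joint vector and high purity give a good product vector -/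
theorem combine {n : ℕ} (f : ZZ A (n + 1) → ℝ) (hf : ip f f = 1)
    (a' : A × Bool → ℝ) (b' : Fin n → Bool → ℝ) (hU : UP a' b')
    (h1 : 9969 / 10000 ≤ ip (pv a' b') (mg f)) (h2 : 992 / 1000 ≤ pur f) :
    ∃ (a : A → ℝ) (b : Fin (n + 1) → Bool → ℝ), UP a b ∧ 965 / 1000 ≤ ip (pv a b) f := by
  obtain ⟨c, hc, hcp⟩ := exists_pur f hf
  set D := ip (ctr c f) (ctr c f) with hD
  have hD1 : 992 / 1000 ≤ D := h2.trans hcp
  have hDpos : 0 < D := by linarith
  have hDle : D ≤ 1 := by
    have := ip_rot c hc f
    rw [hf] at this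
    have h3 := ip_self_nonneg (ctr (perp c) f)
    linarith
  set R := Real.sqrt D with hR
  have hRpos : 0 < R := Real.sqrt_pos.2 hDpos
  have hR2 : R * R = D := Real.mul_self_sqrt hDpos.le
  have hR1 : R ≤ 1 := Real.sqrt_le_one.2 hDle
  have hRD : 9959 / 10000 ≤ R := by
    by_contra hlt
    push Not at hlt
    nlinarith
  set d : ZZ A n → ℝ := fun z => ctr c f z / R with hd
  have hdd : ip d d = 1 := by
    have : ip d d = D / (R * R) := by
      rw [hD]
      unfold ip
      rw [Finset.sum_div]
      exact Finset.sum_congr rfl fun z _ => by rw [hd]; field_simp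
    rw [this, hR2, div_self hDpos.ne']
  -- the vector v
  set v : ZZ A (n + 1) → ℝ := fun z => c (z.2 0) * d (z.1, fun i => z.2 i.succ) with hv
  have hslv : ∀ t, sl v t = fun z => c t * d z := by
    intro t
    funext z
    rw [hv]
    unfold sl
    simp only [Fin.cons_zero, Fin.cons_succ]
  have hvv : ip v v = 1 := by
    rw [ip_cons, hslv, hslv, ip_smul_left, ip_smul_right, ip_smul_left, ip_smul_right, hdd]
    linear_combination hc
  have hvf : ip v f = R := by
    rw [ip_cons, hslv, hslv, ip_smul_left, ip_smul_left, ← ip_smul_right, ← ip_smul_right,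
      ← ip_add_right]
    have e : (fun z => c true * sl f true z + c false * sl f false z) = fun z => R * d z := by
      funext z
      rw [hd]
      show ctr c f z = _
      field_simp
    rw [e, ip_smul_right, hdd, mul_one]
  -- the vector u
  set u : ZZ A (n + 1) → ℝ := fun z => pv a' b' ((z.1, z.2 0), fun i => z.2 i.succ) with hu
  have hmgu : mg u = pv a' b' := by
    funext z
    unfold mg
    rw [hu]
    simp only [Fin.cons_zero, Fin.cons_succ]
  have huu : ip u u = 1 := by
    rw [← ip_mg, hmgu]
    exact pv_unit a' hU.1 b' hU.2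
  have huf : ip u f = ip (pv a' b') (mg f) := by rw [← ip_mg, hmgu]
  -- the partial contraction
  set a2 : A → ℝ := fun x => c true * a' (x, true) + c false * a' (x, false) with ha2
  have hslu : ∀ t, sl u t = pv (fun x => a' (x, t)) b' := by
    intro t
    funext z
    rw [hu]
    unfold sl pv
    simp only [Fin.cons_zero, Fin.cons_succ]
  have huv : ip u v = ip (pv a2 b') d := by
    rw [ip_cons, hslv, hslv, hslu, hslu, ip_smul_right, ip_smul_right, ← ip_smul_left,
      ← ip_smul_left, ← ip_add_left]
    congr 1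
    funext z
    unfold pv
    rw [ha2]
    ring
  have huv1 : 9856 / 10000 ≤ ip u v := by
    have h3 := tri u v f huu hvv hf
    rw [huf, hvf] at h3
    linarith
  set E := ∑ x, a2 x * a2 x with hE
  have hE0 : 0 ≤ E := Finset.sum_nonneg fun x _ => mul_self_nonneg _
  have h3 : (ip u v) ^ 2 ≤ E := by
    rw [huv]
    refine (ip_sq_le _ _).trans (le_of_eq ?_)
    rw [hdd, ip_pv_pv a2 a2 b' hU.2, mul_one]
  have hEpos : 0 < E := by nlinarith
  set S := Real.sqrt E with hS
  have hSpos : 0 < S := Real.sqrt_pos.2 hEpos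
  have hS2 : S * S = E := Real.mul_self_sqrt hE0
  have hS1 : 9856 / 10000 ≤ S := by
    by_contra hlt
    push Not at hlt
    nlinarith
  -- the product vector
  have hUa : UP (fun x => a2 x / S) (Fin.cons c b' : Fin (n + 1) → Bool → ℝ) := by
    constructor
    · have : ∀ x, a2 x / S * (a2 x / S) = a2 x * a2 x / (S * S) := fun x => by field_simp
      rw [Finset.sum_congr rfl fun x _ => this x, ← Finset.sum_div, hS2, ← hE, div_self hEpos.ne']
    · intro i
      refine Fin.cases ?_ (fun j => ?_) i
      · simpa using hc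
      · simpa using hU.2 j
  refine ⟨fun x => a2 x / S, Fin.cons c b', hUa, ?_⟩
  set p := pv (fun x => a2 x / S) (Fin.cons c b' : Fin (n + 1) → Bool → ℝ) with hp
  have hpp : ip p p = 1 := pv_unit _ hUa.1 _ hUa.2
  have hpu : ip p u = S := by
    rw [hp, ip_ctr]
    simp only [Fin.cons_zero, Fin.cons_succ]
    have e1 : ctr c u = pv a2 b' := by
      funext z
      unfold ctr
      rw [hslu, hslu]
      unfold pv
      rw [ha2]
      ring
    rw [e1, ip_pv_pv _ _ b' hU.2]
    have : ∀ x, a2 x / S * a2 x = a2 x * a2 x / S := fun x => by ring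
    rw [Finset.sum_congr rfl fun x _ => this x, ← Finset.sum_div, ← hE, ← hS2]
    field_simp
  have h4 := tri p f u hpp hf huu
  rw [hpu, ip_comm f u, huf] at h4
  linarith

theorem num_final (s e : ℝ) (hs0 : 0 ≤ s) (hs1 : s ≤ 1) (hs : 965 / 1000 ≤ s)
    (he : e ≤ 1 / 500)
    (h : 1 - 2 * e ≤ s ^ 4 + (s * Real.sqrt (1 - s ^ 2) + (1 - s ^ 2)) ^ 2) :
    1 - 3 * e ≤ s ^ 2 := by
  set ε := 1 - s ^ 2 with hε
  have hε0 : 0 ≤ ε := by nlinarith
  have hε1 : ε ≤ 69 / 1000 := by nlinarith
  set r := Real.sqrt ε with hr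
  have hr0 : 0 ≤ r := Real.sqrt_nonneg _
  have hr2 : r * r = ε := Real.mul_self_sqrt hε0
  have hr1 : r ≤ 27 / 100 := by
    by_contra hlt
    push Not at hlt
    have h3 : (27 / 100 : ℝ) * (27 / 100) < r * r :=
      mul_lt_mul'' hlt hlt (by norm_num) (by norm_num)
    rw [hr2] at h3
    linarith
  have e1 : s ^ 4 = (1 - ε) ^ 2 := by rw [hε]; ring
  have e2 : (s * r + ε) ^ 2 = (1 - ε) * ε + 2 * (s * r) * ε + ε ^ 2 := by
    have : s ^ 2 = 1 - ε := by rw [hε]; ring
    calc (s * r + ε) ^ 2 = s ^ 2 * (r * r) + 2 * (s * r) * ε + ε ^ 2 := by ring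
      _ = _ := by rw [this, hr2]
  rw [e1, e2] at h
  have hsr : s * r ≤ r := by
    have := mul_le_mul_of_nonneg_right hs1 hr0
    linarith
  have hm1 : (s * r) * ε ≤ r * ε := mul_le_mul_of_nonneg_right hsr hε0
  have e3 : (1 - ε) ^ 2 + ((1 - ε) * ε + 2 * (s * r) * ε + ε ^ 2) =
      1 - ε + ε ^ 2 + 2 * ((s * r) * ε) := by ring
  rw [e3] at h
  -- main inequality
  have hmain : ε * (1 - ε - 2 * r) ≤ 2 * e := by
    have e4 : ε * (1 - ε - 2 * r) = ε - ε ^ 2 - 2 * (r * ε) := by ring
    rw [e4]; linarith
  have h1 : ε * (39 / 100) ≤ 2 * e :=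
    (mul_le_mul_of_nonneg_left (by linarith) hε0).trans hmain
  have h2 : ε ≤ 2 / 100 := by linarith
  have hr3 : r ≤ 15 / 100 := by
    by_contra hlt
    push Not at hlt
    have h3 : (15 / 100 : ℝ) * (15 / 100) < r * r :=
      mul_lt_mul'' hlt hlt (by norm_num) (by norm_num)
    rw [hr2] at h3
    linarith
  have h3 : ε * (67 / 100) ≤ 2 * e :=
    (mul_le_mul_of_nonneg_left (by linarith) hε0).trans hmain
  rw [hε] at h3 hε0
  linarith

/-- The product test theorem. -/
theorem product_test (e : ℝ) (he0 : 0 ≤ e) (he : e ≤ 1 / 500) (n : ℕ) :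
    ∀ (A : Type) [Fintype A] (f : ZZ A n → ℝ), ip f f = 1 →
    1 - 2 * e ≤ Q (mx A n) f →
    ∃ (a : A → ℝ) (b : Fin n → Bool → ℝ), UP a b ∧ 0 ≤ ip (pv a b) f ∧
      1 - 3 * e ≤ (ip (pv a b) f) ^ 2 := by
  induction n with
  | zero =>
    intro A _ f hf _
    have h1 : ip (pv (fun x => f (x, fun i => i.elim0)) (fun i : Fin 0 => i.elim0)) f = 1 := by
      rw [ip_pv0]
      have : (fun z : ZZ A 0 => f (z.1, fun i => i.elim0)) = f := by
        funext z
        congr 1
        exact Prod.ext rfl (Subsingleton.elim _ _)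
      rw [this, hf]
    refine ⟨fun x => f (x, fun i => i.elim0), fun i => i.elim0, ⟨?_, fun i => i.elim0⟩, ?_, ?_⟩
    · rw [← hf]
      unfold ip
      rw [Fintype.sum_prod_type]
      simp only [Finset.univ_unique, Finset.sum_singleton]
      refine Finset.sum_congr rfl fun x _ => ?_
      congr 1 <;> (congr 1; exact Prod.ext rfl (Subsingleton.elim _ _))
    · rw [h1]; norm_num
    · rw [h1]; linarith
  | succ n ih =>
    intro A _ f hf hQ
    have h1 : 1 - 2 * e ≤ Q (mx (A × Bool) n) (mg f) := hQ.trans (Q_mg f)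
    obtain ⟨a', b', hU, h20, h2⟩ := ih (A × Bool) (mg f) (by rw [ip_mg]; exact hf) h1
    have h3 := Q_pur f hf
    have h4 : 992 / 1000 ≤ pur f := by linarith
    have h2' : 9969 / 10000 ≤ ip (pv a' b') (mg f) := by
      by_contra hlt
      push Not at hlt
      nlinarith
    obtain ⟨a, b, hU2, h5⟩ := combine f hf a' b' hU h2' h4
    haveI : Nonempty A := by
      by_contra hne
      rw [not_nonempty_iff] at hne
      have := hU2.1
      simp at this
    obtain ⟨a1, b1, hU3, hs0, hmax, hT⟩ := test_bound f hf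
    set s := ip (pv a1 b1) f with hs
    have h6 : 965 / 1000 ≤ s := h5.trans (hmax a b hU2)
    have h7 : s ≤ 1 := by
      have := ip_sq_le (pv a1 b1) f
      rw [pv_unit a1 hU3.1 b1 hU3.2, hf, ← hs] at this
      nlinarith
    exact ⟨a1, b1, hU3, hs0, num_final s e hs0 h7 h6 he (hQ.trans hT)⟩

end Vale.Agent.P249.H606
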