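import Vale.Agent.P249.H606.Mixing

set_option linter.all false

/-!
One system `A` and `n` two-valued systems.
-/

namespace Vale.Agent.P249.H606

open Finset

/-- states: one system `A` and `n` two-valued systems -/
abbrev ZZ (A : Type) (n : ℕ) : Type := A × (Fin n → Bool)

/-- exchange patterns -/
abbrev GG (n : ℕ) : Type := ZMod 2 × (Fin n → ZMod 2)

/-- choose the first or the second -/
def pick {A : Type} (k : ZMod 2) (x y : A) : A := if k = 0 then x else y

/-- exchange of coordinates -/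
def mx (A : Type) (n : ℕ) (g : GG n) (z z' : ZZ A n) : ZZ A n :=
  (pick g.1 z.1 z'.1, fun i => pick (g.2 i) (z.2 i) (z'.2 i))

theorem pick_add {A : Type} (k l : ZMod 2) (x y : A) :
    pick (k + l) x y = pick k (pick l x y) (pick l y x) := by
  have : ∀ k l : ZMod 2, (k + l = 0 ↔ (k = 0 ↔ l = 0)) := by decide
  unfold pick
  by_cases hk : k = 0 <;> by_cases hl : l = 0 <;> simp [this, hk, hl]

theorem pick_mul (k : ZMod 2) (x y : ℝ) : pick k x y * pick k y x = x * y := by
  unfold pick; split_ifs <;> ring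

theorem pick_map {A B : Type} (k : ZMod 2) (x y : A) (f : A → B) :
    f (pick k x y) = pick k (f x) (f y) := by
  unfold pick; split_ifs <;> rfl

theorem mix_mx (A : Type) (n : ℕ) : Mix (mx A n) where
  zero := fun x y => by
    unfold mx pick
    simp
  add := fun g h x y => by
    unfold mx
    refine Prod.ext ?_ ?_
    · exact pick_add _ _ _ _
    · funext i; exact pick_add _ _ _ _

theorem mx_one (A : Type) (n : ℕ) (x y : ZZ A n) : mx A n (1, fun _ => 1) x y = y := by
  unfold mx pick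
  simp

/-- product vectors -/
def pv {A : Type} {n : ℕ} (a : A → ℝ) (b : Fin n → Bool → ℝ) (z : ZZ A n) : ℝ :=
  a z.1 * ∏ i, b i (z.2 i)

theorem pv_mx {A : Type} {n : ℕ} (a : A → ℝ) (b : Fin n → Bool → ℝ) (g : GG n) (x y : ZZ A n) :
    pv a b (mx A n g x y) * pv a b (mx A n g y x) = pv a b x * pv a b y := by
  unfold pv mx
  simp only
  rw [mul_mul_mul_comm, ← Finset.prod_mul_distrib, mul_mul_mul_comm (a x.1),
    ← Finset.prod_mul_distrib, pick_map g.1 x.1 y.1 a, pick_map g.1 y.1 x.1 a, pick_mul]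
  congr 1
  refine Finset.prod_congr rfl fun i _ => ?_
  rw [pick_map (g.2 i) (x.2 i) (y.2 i) (b i), pick_map (g.2 i) (y.2 i) (x.2 i) (b i), pick_mul]

/-- slice at the first coordinate -/
def sl {A : Type} {n : ℕ} (φ : ZZ A (n + 1) → ℝ) (t : Bool) (z : ZZ A n) : ℝ :=
  φ (z.1, Fin.cons t z.2)

/-- contraction of the first coordinate with a vector -/
def ctr {A : Type} {n : ℕ} (c : Bool → ℝ) (φ : ZZ A (n + 1) → ℝ) (z : ZZ A n) : ℝ :=
  c true * sl φ true z + c false * sl φ false z

theorem sum_cons {A : Type} [Fintype A] {n : ℕ} (F : ZZ A (n + 1) → ℝ) :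
    ∑ z, F z = ∑ z : ZZ A n, (F (z.1, Fin.cons true z.2) + F (z.1, Fin.cons false z.2)) := by
  rw [Fintype.sum_prod_type, Fintype.sum_prod_type]
  refine Finset.sum_congr rfl fun a _ => ?_
  rw [← (Fin.consEquiv (fun _ : Fin (n + 1) => Bool)).sum_comp, Fintype.sum_prod_type]
  simp only [Fintype.univ_bool, Finset.mem_singleton, Bool.true_eq_false, not_false_eq_true,
    Finset.sum_insert, Finset.sum_singleton]
  rw [← Finset.sum_add_distrib]
  rfl

theorem sum_consG {n : ℕ} (F : GG (n + 1) → ℝ) :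
    ∑ g, F g = ∑ g : GG n, (F (g.1, Fin.cons 0 g.2) + F (g.1, Fin.cons 1 g.2)) := by
  rw [Fintype.sum_prod_type, Fintype.sum_prod_type]
  refine Finset.sum_congr rfl fun a _ => ?_
  rw [← (Fin.consEquiv (fun _ : Fin (n + 1) => ZMod 2)).sum_comp, Fintype.sum_prod_type]
  have : (Finset.univ : Finset (ZMod 2)) = {0, 1} := by decide
  rw [this]
  rw [Finset.sum_insert (by decide), Finset.sum_singleton, ← Finset.sum_add_distrib]
  rfl

theorem ip_cons {A : Type} [Fintype A] {n : ℕ} (φ ψ : ZZ A (n + 1) → ℝ) :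
    ip φ ψ = ip (sl φ true) (sl ψ true) + ip (sl φ false) (sl ψ false) := by
  unfold ip
  rw [sum_cons, Finset.sum_add_distrib]
  rfl

theorem pv_cons {A : Type} {n : ℕ} (a : A → ℝ) (b : Fin (n + 1) → Bool → ℝ) (t : Bool)
    (z : ZZ A n) : pv a b (z.1, Fin.cons t z.2) = b 0 t * pv a (fun i => b i.succ) z := by
  unfold pv
  rw [Fin.prod_univ_succ]
  simp only [Fin.cons_zero, Fin.cons_succ]
  ring

/-- the mass of the test between a product vector and another vector -/
noncomputable def Mf {A : Type} [Fintype A] (a : A → ℝ) : (n : ℕ) → (Fin n → Bool → ℝ) →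
    (ZZ A n → ℝ) → (ZZ A n → ℝ) → ℝ
  | 0, _, φ, ψ => (ip φ ψ + ip (fun z => a z.1) φ * ip (fun z => a z.1) ψ) / 2
  | n + 1, b, φ, ψ => (Mf a n (fun i => b i.succ) (sl φ true) (sl ψ true) +
      Mf a n (fun i => b i.succ) (sl φ false) (sl ψ false) +
      Mf a n (fun i => b i.succ) (ctr (b 0) φ) (ctr (b 0) ψ)) / 2

theorem Mf_succ {A : Type} [Fintype A] (a : A → ℝ) (n : ℕ) (b : Fin (n + 1) → Bool → ℝ)
    (φ ψ : ZZ A (n + 1) → ℝ) : Mf a (n + 1) b φ ψ =
      (Mf a n (fun i => b i.succ) (sl φ true) (sl ψ true) +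
      Mf a n (fun i => b i.succ) (sl φ false) (sl ψ false) +
      Mf a n (fun i => b i.succ) (ctr (b 0) φ) (ctr (b 0) ψ)) / 2 := rfl

/-- the sum behind the product test -/
noncomputable def Rf {A : Type} [Fintype A] {n : ℕ} (p φ ψ : ZZ A n → ℝ) : ℝ :=
  ∑ g : GG n, ∑ z, ∑ z', (p z * φ z') * (p (mx A n g z z') * ψ (mx A n g z' z))

theorem ip_Rf {A : Type} [Fintype A] {n : ℕ} (p φ ψ : ZZ A n → ℝ) :
    ip (tens p φ) (av (sw (mx A n)) (tens p ψ)) = Rf p φ ψ / (Fintype.card (GG n) : ℝ) := by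
  rw [ip_av_eq]
  unfold Rf tens sw
  congr 1
  refine Finset.sum_congr rfl fun g _ => ?_
  rw [Fintype.sum_prod_type]

theorem mx_cons (A : Type) (n : ℕ) (g : GG n) (κ : ZMod 2) (z z' : ZZ A n) (s t : Bool) :
    mx A (n + 1) (g.1, Fin.cons κ g.2) (z.1, Fin.cons s z.2) (z'.1, Fin.cons t z'.2) =
      ((mx A n g z z').1, Fin.cons (pick κ s t) (mx A n g z z').2) := by
  unfold mx
  refine Prod.ext rfl ?_
  funext i
  refine Fin.cases ?_ (fun j => ?_) i
  · simp only [Fin.cons_zero]
  · simp only [Fin.cons_succ]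

theorem card_GG (n : ℕ) : (Fintype.card (GG n) : ℝ) = 2 ^ (n + 1) := by
  rw [Fintype.card_prod, Fintype.card_fun, ZMod.card, Fintype.card_fin]
  push_cast
  ring

theorem Rf_eq {A : Type} [Fintype A] (a : A → ℝ) (ha : ∑ x, a x * a x = 1) (n : ℕ) :
    ∀ (b : Fin n → Bool → ℝ) (_ : ∀ i, b i true * b i true + b i false * b i false = 1)
      (φ ψ : ZZ A n → ℝ), Rf (pv a b) φ ψ = 2 ^ (n + 1) * Mf a n b φ ψ := by
  induction n with
  | zero =>
    intro b _ φ ψ
    unfold Rf Mf
    have h0 : ∀ F : GG 0 → ℝ, ∑ g, F g = F (0, fun _ => 0) + F (1, fun _ => 0) := by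
      intro F
      rw [Fintype.sum_prod_type]
      have : (Finset.univ : Finset (ZMod 2)) = {0, 1} := by decide
      rw [this, Finset.sum_insert (by decide), Finset.sum_singleton]
      simp only [Finset.univ_unique, Finset.sum_singleton]
      congr 2
      · exact Prod.ext rfl (Subsingleton.elim _ _)
      · exact Prod.ext rfl (Subsingleton.elim _ _)
    rw [h0]
    have hp : ∀ z : ZZ A 0, pv a b z = a z.1 := fun z => by unfold pv; simp
    have e0 : ∀ z z' : ZZ A 0, mx A 0 (0, fun _ => 0) z z' = z := fun z z' => by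
      unfold mx pick; exact Prod.ext (by simp) (Subsingleton.elim _ _)
    have e1 : ∀ z z' : ZZ A 0, mx A 0 (1, fun _ => 0) z z' = z' := fun z z' => by
      unfold mx pick; exact Prod.ext (by simp) (Subsingleton.elim _ _)
    simp only [e0, e1, hp]
    have ha' : ∑ z : ZZ A 0, a z.1 * a z.1 = 1 := by
      rw [Fintype.sum_prod_type]
      simpa using ha
    have h1 : ∑ z : ZZ A 0, ∑ z' : ZZ A 0, a z.1 * φ z' * (a z.1 * ψ z') = ip φ ψ := by
      unfold ip
      rw [← one_mul (∑ y, φ y * ψ y), ← ha', Finset.sum_mul_sum]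
      refine Finset.sum_congr rfl fun z _ => Finset.sum_congr rfl fun z' _ => by ring
    have h2 : ∑ z : ZZ A 0, ∑ z' : ZZ A 0, a z.1 * φ z' * (a z'.1 * ψ z) =
        ip (fun z : ZZ A 0 => a z.1) φ * ip (fun z : ZZ A 0 => a z.1) ψ := by
      unfold ip
      rw [mul_comm, Finset.sum_mul_sum]
      refine Finset.sum_congr rfl fun z _ => Finset.sum_congr rfl fun z' _ => by ring
    rw [h1, h2]
    ring
  | succ n ih =>
    intro b hb φ ψ
    have h1 : Rf (pv a b) φ ψ =
        Rf (pv a (fun i => b i.succ)) (sl φ true) (sl ψ true) +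
        Rf (pv a (fun i => b i.succ)) (sl φ false) (sl ψ false) +
        Rf (pv a (fun i => b i.succ)) (ctr (b 0) φ) (ctr (b 0) ψ) := by
      unfold Rf
      rw [sum_consG, ← Finset.sum_add_distrib, ← Finset.sum_add_distrib]
      refine Finset.sum_congr rfl fun g _ => ?_
      rw [sum_cons, sum_cons, ← Finset.sum_add_distrib, ← Finset.sum_add_distrib,
        ← Finset.sum_add_distrib]
      refine Finset.sum_congr rfl fun z _ => ?_
      rw [sum_cons, sum_cons, sum_cons, sum_cons, ← Finset.sum_add_distrib,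
        ← Finset.sum_add_distrib, ← Finset.sum_add_distrib, ← Finset.sum_add_distrib,
        ← Finset.sum_add_distrib]
      refine Finset.sum_congr rfl fun z' _ => ?_
      simp only [mx_cons, pv_cons]
      have hp : ∀ (s t : Bool), pick (0 : ZMod 2) s t = s := fun s t => by simp [pick]
      have hq : ∀ (s t : Bool), pick (1 : ZMod 2) s t = t := fun s t => by simp [pick]
      simp only [hp, hq]
      unfold ctr sl
      linear_combination (pv a (fun i => b i.succ) z * pv a (fun i => b i.succ) (mx A n g z z') *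
        (φ (z'.1, Fin.cons true z'.2) * ψ ((mx A n g z' z).1, Fin.cons true (mx A n g z' z).2) +
        φ (z'.1, Fin.cons false z'.2) * ψ ((mx A n g z' z).1, Fin.cons false (mx A n g z' z).2))) *
          hb 0
    rw [h1, ih _ (fun i => hb i.succ), ih _ (fun i => hb i.succ), ih _ (fun i => hb i.succ),
      Mf_succ]
    ring

theorem test_Mf {A : Type} [Fintype A] (a : A → ℝ) (ha : ∑ x, a x * a x = 1) (n : ℕ)
    (b : Fin n → Bool → ℝ) (hb : ∀ i, b i true * b i true + b i false * b i false = 1)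
    (φ ψ : ZZ A n → ℝ) :
    ip (tens (pv a b) φ) (av (sw (mx A n)) (tens (pv a b) ψ)) = Mf a n b φ ψ := by
  rw [ip_Rf, Rf_eq a ha n b hb, card_GG]
  field_simp

theorem Mf_left {A : Type} [Fintype A] (a : A → ℝ) (n : ℕ) :
    ∀ (b : Fin n → Bool → ℝ) (α β : ℝ) (u v ψ : ZZ A n → ℝ),
      Mf a n b (fun z => α * u z + β * v z) ψ = α * Mf a n b u ψ + β * Mf a n b v ψ := by
  induction n with
  | zero =>
    intro b α β u v ψ
    unfold Mf
    rw [ip_add_left, ip_smul_left, ip_smul_left, ip_add_right, ip_smul_right, ip_smul_right]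
    ring
  | succ n ih =>
    intro b α β u v ψ
    rw [Mf_succ, Mf_succ, Mf_succ]
    have h1 : ∀ t, sl (fun z => α * u z + β * v z) t = fun z => α * sl u t z + β * sl v t z :=
      fun t => rfl
    have h2 : ctr (b 0) (fun z => α * u z + β * v z) =
        fun z => α * ctr (b 0) u z + β * ctr (b 0) v z := by
      funext z; unfold ctr sl; ring
    rw [h1, h1, h2, ih, ih, ih]
    ring

theorem Mf_symm {A : Type} [Fintype A] (a : A → ℝ) (n : ℕ) :
    ∀ (b : Fin n → Bool → ℝ) (φ ψ : ZZ A n → ℝ), Mf a n b φ ψ = Mf a n b ψ φ := by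
  induction n with
  | zero =>
    intro b φ ψ
    unfold Mf
    rw [ip_comm φ ψ]
    ring
  | succ n ih =>
    intro b φ ψ
    rw [Mf_succ, Mf_succ, ih, ih _ (sl φ false), ih _ (ctr (b 0) φ)]

theorem Mf_right {A : Type} [Fintype A] (a : A → ℝ) (n : ℕ)
    (b : Fin n → Bool → ℝ) (α β : ℝ) (u v ψ : ZZ A n → ℝ) :
      Mf a n b ψ (fun z => α * u z + β * v z) = α * Mf a n b ψ u + β * Mf a n b ψ v := by
  rw [Mf_symm, Mf_left, Mf_symm, Mf_symm a n b v]

/-- the orthogonal vector -/
def perp (c : Bool → ℝ) (t : Bool) : ℝ := if t then - c false else c true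

theorem sl_true {A : Type} {n : ℕ} (c : Bool → ℝ) (hc : c true * c true + c false * c false = 1)
    (φ : ZZ A (n + 1) → ℝ) :
    sl φ true = fun z => c true * ctr c φ z + (- c false) * ctr (perp c) φ z := by
  funext z; unfold ctr perp
  simp only [if_true, Bool.false_eq_true, if_false]
  linear_combination (- sl φ true z) * hc

theorem sl_false {A : Type} {n : ℕ} (c : Bool → ℝ) (hc : c true * c true + c false * c false = 1)
    (φ : ZZ A (n + 1) → ℝ) :
    sl φ false = fun z => c false * ctr c φ z + c true * ctr (perp c) φ z := by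
  funext z; unfold ctr perp
  simp only [if_true, Bool.false_eq_true, if_false]
  linear_combination (- sl φ false z) * hc

theorem ip_rot {A : Type} [Fintype A] {n : ℕ} (c : Bool → ℝ)
    (hc : c true * c true + c false * c false = 1) (φ : ZZ A (n + 1) → ℝ) :
    ip φ φ = ip (ctr c φ) (ctr c φ) + ip (ctr (perp c) φ) (ctr (perp c) φ) := by
  rw [ip_cons, sl_true c hc, sl_false c hc]
  simp only [ip_add_left, ip_add_right, ip_smul_left, ip_smul_right]
  linear_combination (ip (ctr c φ) (ctr c φ) + ip (ctr (perp c) φ) (ctr (perp c) φ)) * hc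

theorem Mf_rot {A : Type} [Fintype A] (a : A → ℝ) {n : ℕ} (b : Fin (n + 1) → Bool → ℝ)
    (hb : b 0 true * b 0 true + b 0 false * b 0 false = 1) (φ : ZZ A (n + 1) → ℝ) :
    Mf a (n + 1) b φ φ = Mf a n (fun i => b i.succ) (ctr (b 0) φ) (ctr (b 0) φ) +
      Mf a n (fun i => b i.succ) (ctr (perp (b 0)) φ) (ctr (perp (b 0)) φ) / 2 := by
  rw [Mf_succ]
  conv_lhs => rw [sl_true (b 0) hb, sl_false (b 0) hb]
  rw [Mf_left, Mf_right, Mf_right, Mf_left, Mf_right, Mf_right]
  linear_combination ((Mf a n (fun i => b i.succ) (ctr (b 0) φ) (ctr (b 0) φ) +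
    Mf a n (fun i => b i.succ) (ctr (perp (b 0)) φ) (ctr (perp (b 0)) φ)) / 2) * hb

theorem ip_ctr {A : Type} [Fintype A] (a : A → ℝ) {n : ℕ} (b : Fin (n + 1) → Bool → ℝ)
    (φ : ZZ A (n + 1) → ℝ) :
    ip (pv a b) φ = ip (pv a fun i => b i.succ) (ctr (b 0) φ) := by
  unfold ip
  rw [sum_cons]
  refine Finset.sum_congr rfl fun z _ => ?_
  rw [pv_cons, pv_cons]
  unfold ctr sl
  ring

theorem ip_pv0 {A : Type} [Fintype A] (a : A → ℝ) (b : Fin 0 → Bool → ℝ) (φ : ZZ A 0 → ℝ) :
    ip (pv a b) φ = ip (fun z => a z.1) φ := by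
  unfold ip pv
  simp

theorem ip_fst {A : Type} [Fintype A] (a : A → ℝ) (ha : ∑ x, a x * a x = 1) :
    ip (fun z : ZZ A 0 => a z.1) (fun z => a z.1) = 1 := by
  unfold ip
  rw [Fintype.sum_prod_type]
  simpa using ha

theorem Mf_le {A : Type} [Fintype A] (a : A → ℝ) (ha : ∑ x, a x * a x = 1) (n : ℕ) :
    ∀ (b : Fin n → Bool → ℝ) (_ : ∀ i, b i true * b i true + b i false * b i false = 1)
      (φ : ZZ A n → ℝ), Mf a n b φ φ ≤ ip φ φ := by
  induction n with
  | zero =>
    intro b _ φ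
    unfold Mf
    have h1 := ip_sq_le (fun z : ZZ A 0 => a z.1) φ
    rw [ip_fst a ha] at h1
    nlinarith [h1]
  | succ n ih =>
    intro b hb φ
    rw [Mf_rot a b (hb 0), ip_rot (b 0) (hb 0) φ]
    have h1 := ih (fun i => b i.succ) (fun i => hb i.succ) (ctr (b 0) φ)
    have h2 := ih (fun i => b i.succ) (fun i => hb i.succ) (ctr (perp (b 0)) φ)
    have h3 := ip_self_nonneg (ctr (perp (b 0)) φ)
    linarith

/-- the coarse bound -/
theorem Mf_half {A : Type} [Fintype A] (a : A → ℝ) (ha : ∑ x, a x * a x = 1) (n : ℕ) :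
    ∀ (b : Fin n → Bool → ℝ) (_ : ∀ i, b i true * b i true + b i false * b i false = 1)
      (φ : ZZ A n → ℝ), 2 * Mf a n b φ φ ≤ ip φ φ + (ip (pv a b) φ) ^ 2 := by
  induction n with
  | zero =>
    intro b _ φ
    rw [ip_pv0]
    unfold Mf
    apply le_of_eq
    ring
  | succ n ih =>
    intro b hb φ
    rw [Mf_rot a b (hb 0), ip_rot (b 0) (hb 0) φ, ip_ctr]
    have h1 := ih (fun i => b i.succ) (fun i => hb i.succ) (ctr (b 0) φ)
    have h2 := Mf_le a ha n (fun i => b i.succ) (fun i => hb i.succ) (ctr (perp (b 0)) φ)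
    linarith

/-- the fine bound -/
theorem Mf_quarter {A : Type} [Fintype A] (a : A → ℝ) (ha : ∑ x, a x * a x = 1) (n : ℕ) :
    ∀ (b : Fin n → Bool → ℝ) (_ : ∀ i, b i true * b i true + b i false * b i false = 1)
      (φ : ZZ A n → ℝ) (_ : ∀ c : A → ℝ, ip (pv c b) φ = 0)
      (_ : ∀ (i : Fin n) (c : Bool → ℝ), ip (pv a (Function.update b i c)) φ = 0),
      4 * Mf a n b φ φ ≤ ip φ φ := by
  induction n with
  | zero =>
    intro b _ φ h1 _
    have h2 := h1 (fun x => φ (x, fun i => i.elim0))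
    have h3 := h1 a
    rw [ip_pv0] at h2 h3
    have h4 : (fun z : ZZ A 0 => φ (z.1, fun i => i.elim0)) = φ := by
      funext z
      congr 1
      exact Prod.ext rfl (Subsingleton.elim _ _)
    have h2' : ip (fun z : ZZ A 0 => φ (z.1, fun i => i.elim0)) φ = 0 := h2
    rw [h4] at h2'
    unfold Mf
    rw [h2', h3]
    norm_num
  | succ n ih =>
    intro b hb φ h1 h2
    rw [Mf_rot a b (hb 0), ip_rot (b 0) (hb 0) φ]
    have h3 := ih (fun i => b i.succ) (fun i => hb i.succ) (ctr (b 0) φ) (fun c => by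
      rw [← ip_ctr]; exact h1 c) (fun i c => by
      have h4 := h2 i.succ c
      rw [ip_ctr, Function.update_of_ne (Fin.succ_ne_zero i).symm] at h4
      rw [← h4]
      congr 2
      funext j
      by_cases hj : j = i
      · subst hj; simp
      · rw [Function.update_of_ne hj, Function.update_of_ne (fun h => hj (Fin.succ_injective _ h))])
    have h5 := Mf_half a ha n (fun i => b i.succ) (fun i => hb i.succ) (ctr (perp (b 0)) φ)
    have h6 : ip (pv a fun i => b i.succ) (ctr (perp (b 0)) φ) = 0 := by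
      have h7 := h2 0 (perp (b 0))
      rw [ip_ctr, Function.update_self] at h7
      rw [← h7]
      have h8 : (fun i : Fin n => b i.succ) =
          fun i : Fin n => Function.update b 0 (perp (b 0)) i.succ := by
        funext i
        rw [Function.update_of_ne (Fin.succ_ne_zero i)]
      rw [h8]
    rw [h6] at h5
    linarith

end Vale.Agent.P249.H606
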